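import Vale.Agent.P154.Window.Dichotomy
import Vale.Agent.P154.Four.InfoPointwise
import Vale.Agent.P154.Four.ClosPointwise

/-!
Three- and four-state Potts channels: the Kesten-Stigum threshold is the exact reconstruction
threshold on every regular tree and every Poisson tree, for every admissible parameter with
three states and for every ferromagnetic parameter with four states.
-/

namespace Vale.Agent.Results.P154.PottsKSThreshold

open Vale.Agent.P154 (Law branch branch_pos regularLaw poissonLaw regular_law regular_branch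
  regular_m2 poisson_law poisson_branch poisson_m2)
open Vale.Agent

/-- The certificate for four states. -/
lemma cert4 : P154.Four.Cert P154.Four.mF P154.Four.mP P154.Four.mW (1 / 128) :=
  P154.Four.cert_of_points P154.Four.infoPoint P154.Four.closPoint

/-- The main statement. -/
theorem result :
    ((∀ d : ℕ, 2 ≤ d → ∀ l : ℝ, 0 ≤ l → l ≤ 1 →
      (P154.Four.Reconstruction (regularLaw d) l ↔ 1 < (d : ℝ) * l ^ 2) ∧
      (P154.Four.Nonreconstruction (regularLaw d) l ↔ (d : ℝ) * l ^ 2 ≤ 1)) ∧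
    (∀ d : ℝ, 0 < d → ∀ l : ℝ, 0 ≤ l → l ≤ 1 →
      (P154.Four.Reconstruction (poissonLaw d) l ↔ 1 < d * l ^ 2) ∧
      (P154.Four.Nonreconstruction (poissonLaw d) l ↔ d * l ^ 2 ≤ 1)) ∧
    (∀ (p : ℕ → ℝ) (d : ℝ), (∀ n, 0 ≤ p n) → HasSum p 1 →
      HasSum (fun n : ℕ => (n : ℝ) * p n) d → (∃ n, 2 ≤ n ∧ 0 < p n) →
      ∀ l : ℝ, 0 ≤ l → l ≤ 1 → d * l ^ 2 ≤ 1 → P154.Four.Nonreconstruction p l)) ∧
    ((∀ d : ℕ, 2 ≤ d → ∀ l : ℝ, -(1 / 2) ≤ l → l ≤ 1 →
      (P154.Reconstruction (regularLaw d) l ↔ 1 < (d : ℝ) * l ^ 2) ∧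
      (P154.Nonreconstruction (regularLaw d) l ↔ (d : ℝ) * l ^ 2 ≤ 1)) ∧
    (∀ d : ℝ, 0 < d → ∀ l : ℝ, -(1 / 2) ≤ l → l ≤ 1 →
      (P154.Reconstruction (poissonLaw d) l ↔ 1 < d * l ^ 2) ∧
      (P154.Nonreconstruction (poissonLaw d) l ↔ d * l ^ 2 ≤ 1)) ∧
    (∀ (p : ℕ → ℝ) (d : ℝ), (∀ n, 0 ≤ p n) → HasSum p 1 →
      HasSum (fun n : ℕ => (n : ℝ) * p n) d → (∃ n, 2 ≤ n ∧ 0 < p n) →
      ∀ l : ℝ, -(99 / 500) ≤ l → l ≤ 1 → d * l ^ 2 ≤ 1 → P154.Nonreconstruction p l)) := by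
  refine ⟨⟨(P154.Four.threshold cert4).1, (P154.Four.threshold cert4).2,
      fun p d hp ht hm hn l h0 h1 hd => ?_⟩,
    P154.Window.threshold_regular, P154.Window.threshold_poisson, P154.Window.threshold_general⟩
  obtain ⟨n, h2, hn⟩ := hn
  exact P154.Four.nonreconstruction_of_le cert4 ⟨hp, ht, hm⟩ h0 h1 hd
    (branch_pos ⟨hp, ht, hm⟩ h2 hn)

end Vale.Agent.Results.P154.PottsKSThreshold
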